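import Vale.Agent.P016.Main

/-- Artin's primitive root conjecture. -/
theorem Vale.Agent.Results.P016.Artin.result :
    ∀ a : ℤ, a ≠ -1 → ¬ IsSquare a →
      {p : ℕ | p.Prime ∧ ¬ (p : ℤ) ∣ a ∧ orderOf (a : ZMod p) = p - 1}.Infinite :=
  ART.artin
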