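import Vale.Agent.P016Q.Main

/-- Artin's primitive root conjecture, with the conjectured order of magnitude. -/
theorem Vale.Agent.Results.P016.ArtinDensity.result :
    ∀ a : ℤ, a ≠ -1 → ¬ IsSquare a →
      {p : ℕ | p.Prime ∧ ¬ (p : ℤ) ∣ a ∧ orderOf (a : ZMod p) = p - 1}.Infinite ∧
      ∀ l : ℝ, 1 < l → ∃ c : ℝ, 0 < c ∧ ∃ x₀ : ℝ, ∀ x : ℝ, x₀ ≤ x → c * x / Real.log x ≤
        (Set.ncard {p : ℕ | p.Prime ∧ x < p ∧ (p : ℝ) < l * x ∧ ¬ (p : ℤ) ∣ a ∧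
          orderOf (a : ZMod p) = p - 1} : ℝ) := by
  intro a ha hsq
  refine ⟨ART.artin a ha hsq, fun l hl => ?_⟩
  obtain ⟨c, hc, h⟩ := ART.artinQ a ha hsq l hl
  exact ⟨c, hc, Filter.eventually_atTop.1 h⟩
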